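import Mathlib

/-! Grid/Interp (helper81): a function on a box with bounded pure second partials is bounded below by its vertex values. -/

set_option autoImplicit false
open Set Finset

namespace Crest.Agent.Lib.Grid

/-- one variable -/
theorem interp1 {f f1 f2 : ℝ → ℝ} {a b x D m : ℝ} (ha : a ≤ x) (hb : x ≤ b)
    (h1 : ∀ t ∈ Icc a b, HasDerivAt f (f1 t) t) (h2 : ∀ t ∈ Icc a b, HasDerivAt f1 (f2 t) t)
    (hD : ∀ t ∈ Icc a b, f2 t ≤ D) (D0 : 0 ≤ D) (fa : m ≤ f a) (fb : m ≤ f b) : m - D * (b - a) ^ 2 / 8 ≤ f x := by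
  have hc : ConcaveOn ℝ (Icc a b) (fun t => f t + D / 2 * ((t - a) * (b - t))) := by
    refine concaveOn_of_hasDerivWithinAt2_nonpos (f' := fun t => f1 t + D / 2 * (a + b - 2 * t))
      (f'' := fun t => f2 t - D) (convex_Icc a b) ?_ ?_ ?_ ?_
    · exact fun t ht => ((h1 t ht).continuousAt.add (by fun_prop)).continuousWithinAt
    · intro t ht
      refine ((h1 t (interior_subset ht)).add (((((hasDerivAt_id t).sub_const a).mul
        ((hasDerivAt_id t).const_sub b)).const_mul (D / 2)).congr_deriv ?_)).hasDerivWithinAt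
      simp only [id]; ring
    · intro t ht
      refine (((h2 t (interior_subset ht)).add (((((hasDerivAt_id t).const_mul 2).const_sub (a + b))).const_mul
        (D / 2))).congr_deriv ?_).hasDerivWithinAt
      ring
    · exact fun t ht => sub_nonpos.2 (hD t (interior_subset ht))
  have h := hc.min_le_of_mem_Icc (left_mem_Icc.2 (ha.trans hb)) (right_mem_Icc.2 (ha.trans hb)) ⟨ha, hb⟩
  simp only [sub_self, zero_mul, mul_zero, add_zero] at h
  have h3 : m ≤ f x + D / 2 * ((x - a) * (b - x)) := (le_min fa fb).trans h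
  nlinarith [mul_nonneg D0 (sq_nonneg (a + b - 2 * x))]

/-- the vertex lemma: `f1 j`, `f2 j` are the first and second partials in direction `j` -/
theorem interp {k : ℕ} {f : (Fin k → ℝ) → ℝ} {f1 f2 : Fin k → (Fin k → ℝ) → ℝ} {a b D : Fin k → ℝ} {m : ℝ}
    (h1 : ∀ j y, (∀ i, y i ∈ Icc (a i) (b i)) → HasDerivAt (fun t => f (Function.update y j t)) (f1 j y) (y j))
    (h2 : ∀ j y, (∀ i, y i ∈ Icc (a i) (b i)) → HasDerivAt (fun t => f1 j (Function.update y j t)) (f2 j y) (y j))
    (hD : ∀ j y, (∀ i, y i ∈ Icc (a i) (b i)) → f2 j y ≤ D j) (D0 : ∀ j, 0 ≤ D j)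
    (hv : ∀ v, (∀ i, v i = a i ∨ v i = b i) → m ≤ f v) {y : Fin k → ℝ} (hy : ∀ i, y i ∈ Icc (a i) (b i)) :
    m - ∑ j, D j * (b j - a j) ^ 2 / 8 ≤ f y := by
  have key : ∀ S : Finset (Fin k), ∀ y : Fin k → ℝ, (∀ i, y i ∈ Icc (a i) (b i)) → (∀ i, i ∉ S → y i = a i ∨ y i = b i) →
      m - ∑ j ∈ S, D j * (b j - a j) ^ 2 / 8 ≤ f y := by
    intro S
    induction S using Finset.induction_on with
    | empty => intro y _ h; simpa using hv y fun i => h i (by simp)
    | insert j S hj ih =>
      intro y hy h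
      have hu : ∀ t ∈ Icc (a j) (b j), ∀ i, Function.update y j t i ∈ Icc (a i) (b i) := fun t ht i => by
        by_cases e : i = j
        · subst e; simpa using ht
        · simpa [e] using hy i
      have hab := (hy j).1.trans (hy j).2
      have he : ∀ t, (t = a j ∨ t = b j) → m - ∑ j ∈ S, D j * (b j - a j) ^ 2 / 8 ≤ f (Function.update y j t) :=
        fun t ht => ih _ (hu t (by rcases ht with e | e <;> rw [e] <;> simp [hab])) fun i hi => by
          by_cases e : i = j
          · subst e; simpa using ht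
          · simpa [e] using h i (by simp [e, hi])
      have := interp1 (f := fun t => f (Function.update y j t)) (f1 := fun t => f1 j (Function.update y j t))
        (f2 := fun t => f2 j (Function.update y j t)) (hy j).1 (hy j).2
        (fun t ht => by simpa using h1 j _ (hu t ht)) (fun t ht => by simpa using h2 j _ (hu t ht))
        (fun t ht => hD j _ (hu t ht)) (D0 j) (he _ (Or.inl rfl)) (he _ (Or.inr rfl))
      rw [sum_insert hj]
      simp only [Function.update_eq_self] at this
      linarith
  exact key Finset.univ y hy fun i hi => absurd (Finset.mem_univ i) hi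

end Crest.Agent.Lib.Grid
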