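import Crest.Agent.Lib.Grid.Interp

/-! Grid/Macro (helper81): the vertex lemma on a uniform grid of a macro box, scalar and quadratic-form versions. -/

set_option autoImplicit false
open Set Finset

namespace Crest.Agent.Lib.Grid

theorem exists_cell {a w y : ℝ} {n : ℕ} (hw : 0 ≤ w) (hn : 0 < n) (h1 : a ≤ y) (h2 : y ≤ a + n * w) :
    ∃ I : ℕ, I < n ∧ a + I * w ≤ y ∧ y ≤ a + (I + 1 : ℕ) * w := by
  induction n with
  | zero => omega
  | succ n ih =>
    rcases le_or_gt y (a + n * w) with h | h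
    · rcases Nat.eq_zero_or_pos n with e | e
      · subst e
        exact ⟨0, by omega, by simpa using h1, h2⟩
      · obtain ⟨I, hI, h⟩ := ih e h
        exact ⟨I, by omega, h⟩
    · exact ⟨n, by omega, h.le, h2⟩

/-- grid version: macro box `[a, a + n w]`, grid points `a + I w`, `I ≤ n` -/
theorem grid {k : ℕ} {f : (Fin k → ℝ) → ℝ} {f1 f2 : Fin k → (Fin k → ℝ) → ℝ} {a w D : Fin k → ℝ} {n : Fin k → ℕ} {m : ℝ}
    (hw : ∀ j, 0 ≤ w j) (hn : ∀ j, 0 < n j)
    (h1 : ∀ j y, (∀ i, y i ∈ Icc (a i) (a i + n i * w i)) →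
      HasDerivAt (fun t => f (Function.update y j t)) (f1 j y) (y j))
    (h2 : ∀ j y, (∀ i, y i ∈ Icc (a i) (a i + n i * w i)) →
      HasDerivAt (fun t => f1 j (Function.update y j t)) (f2 j y) (y j))
    (hD : ∀ j y, (∀ i, y i ∈ Icc (a i) (a i + n i * w i)) → f2 j y ≤ D j) (D0 : ∀ j, 0 ≤ D j)
    (hv : ∀ I : Fin k → ℕ, (∀ i, I i ≤ n i) → m ≤ f fun i => a i + I i * w i)
    {y : Fin k → ℝ} (hy : ∀ i, y i ∈ Icc (a i) (a i + n i * w i)) :
    m - ∑ j, D j * w j ^ 2 / 8 ≤ f y := by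
  choose I hI lo hi using fun i => exists_cell (hw i) (hn i) (hy i).1 (hy i).2
  have sub : ∀ y : Fin k → ℝ, (∀ i, y i ∈ Icc (a i + I i * w i) (a i + (I i + 1 : ℕ) * w i)) →
      ∀ i, y i ∈ Icc (a i) (a i + n i * w i) := fun y h i => by
    have e1 : (0 : ℝ) ≤ I i * w i := mul_nonneg (Nat.cast_nonneg _) (hw i)
    have e2 : ((I i + 1 : ℕ) : ℝ) * w i ≤ n i * w i := mul_le_mul_of_nonneg_right (Nat.cast_le.2 (hI i)) (hw i)
    exact ⟨by linarith [(h i).1], by linarith [(h i).2]⟩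
  have := interp (f := f) (f1 := f1) (f2 := f2) (a := fun i => a i + I i * w i) (b := fun i => a i + (I i + 1 : ℕ) * w i)
    (D := D) (m := m) (fun j y h => h1 j y (sub y h)) (fun j y h => h2 j y (sub y h)) (fun j y h => hD j y (sub y h)) D0
    (fun v h => by
      classical
      have := hv (fun i => if v i = a i + I i * w i then I i else I i + 1) fun i => by
        have := hI i
        split_ifs <;> omega
      refine this.trans_eq (congrArg f (funext fun i => ?_))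
      split_ifs with e
      · exact e.symm
      · exact ((h i).resolve_left e).symm) (y := y) fun i => ⟨lo i, hi i⟩
  refine le_trans (le_of_eq ?_) this
  congr 1
  refine Finset.sum_congr rfl fun j _ => ?_
  push_cast
  ring

/-- quadratic-form version: entries `A p q` with partials `A1`, `A2`; `B j ξ` majorises the form of `A2 j` on the macro box;
the grid test is `∑ j, w j ^ 2 / 8 * B j ξ ≤ form (A v) ξ`. -/
theorem grid_form {k d : ℕ} {A : Fin d → Fin d → (Fin k → ℝ) → ℝ} {A1 A2 : Fin k → Fin d → Fin d → (Fin k → ℝ) → ℝ}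
    {a w : Fin k → ℝ} {n : Fin k → ℕ} {B : Fin k → ℝ} (ξ : Fin d → ℝ) {m : ℝ}
    (hw : ∀ j, 0 ≤ w j) (hn : ∀ j, 0 < n j)
    (h1 : ∀ j p q y, (∀ i, y i ∈ Icc (a i) (a i + n i * w i)) →
      HasDerivAt (fun t => A p q (Function.update y j t)) (A1 j p q y) (y j))
    (h2 : ∀ j p q y, (∀ i, y i ∈ Icc (a i) (a i + n i * w i)) →
      HasDerivAt (fun t => A1 j p q (Function.update y j t)) (A2 j p q y) (y j))
    (hD : ∀ j y, (∀ i, y i ∈ Icc (a i) (a i + n i * w i)) → ∑ p, ∑ q, A2 j p q y * ξ p * ξ q ≤ B j) (B0 : ∀ j, 0 ≤ B j)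
    (hv : ∀ I : Fin k → ℕ, (∀ i, I i ≤ n i) →
      m + ∑ j, B j * w j ^ 2 / 8 ≤ ∑ p, ∑ q, A p q (fun i => a i + I i * w i) * ξ p * ξ q)
    {y : Fin k → ℝ} (hy : ∀ i, y i ∈ Icc (a i) (a i + n i * w i)) :
    m ≤ ∑ p, ∑ q, A p q y * ξ p * ξ q := by
  have := grid (f := fun y => ∑ p, ∑ q, A p q y * ξ p * ξ q) (f1 := fun j y => ∑ p, ∑ q, A1 j p q y * ξ p * ξ q)
    (f2 := fun j y => ∑ p, ∑ q, A2 j p q y * ξ p * ξ q) hw hn
    (fun j y h => HasDerivAt.fun_sum fun p _ => HasDerivAt.fun_sum fun q _ => ((h1 j p q y h).mul_const _).mul_const _)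
    (fun j y h => HasDerivAt.fun_sum fun p _ => HasDerivAt.fun_sum fun q _ => ((h2 j p q y h).mul_const _).mul_const _)
    hD B0 hv hy
  linarith

end Crest.Agent.Lib.Grid
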